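import Mathlib

/-!
Row 53, part C: the transfinite construction, in an abstract Boolean algebra in which every family
of fewer than continuum many nonzero elements is split by one element.
-/

set_option autoImplicit false

namespace Crest.Agent.R053

open Set Cardinal

/-- Fewer than continuum many elements. -/
def Few {α : Type} (s : Set α) : Prop := #s < continuum

theorem Few.union {α : Type} {s t : Set α} (hs : Few s) (ht : Few t) : Few (s ∪ t) :=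
  (mk_union_le s t).trans_lt (add_lt_of_lt aleph0_le_continuum hs ht)

theorem Few.image {α β : Type} {s : Set α} (hs : Few s) (f : α → β) : Few (f '' s) :=
  mk_image_le.trans_lt hs

theorem few_singleton {α : Type} (a : α) : Few ({a} : Set α) := by
  unfold Few
  rw [mk_singleton]
  exact one_lt_aleph0.trans aleph0_lt_continuum

/-- Every small family of nonzero elements is split by a single element. -/
def Splitting (B : Type) [BooleanAlgebra B] : Prop :=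
  ∀ W : Set B, Few W → ∃ y, ∀ w ∈ W, w ≠ ⊥ → w ⊓ y ≠ ⊥ ∧ w ⊓ yᶜ ≠ ⊥

variable {B : Type} [BooleanAlgebra B]

theorem Splitting.generic (hG : Splitting B) {P : Set B} (hP : Few P) {a a' : B} (h : a ≤ a') :
    ∃ c, a ≤ c ∧ c ≤ a' ∧ ∀ p ∈ P, (p ≤ c → p ≤ a) ∧ (c ≤ p → a' ≤ p) ∧
      (c ⊓ p = ⊥ → a' ⊓ p = ⊥) := by
  obtain ⟨y, hy⟩ := hG _ (((hP.image fun p => p ⊓ aᶜ).union (hP.image fun p => a' ⊓ pᶜ)).union
    (hP.image fun p => a' ⊓ p))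
  refine ⟨a ⊔ a' ⊓ y, le_sup_left, sup_le h inf_le_left, fun p hp => ⟨?_, ?_, ?_⟩⟩
  · intro hpc
    by_contra hne
    refine (hy _ (Or.inl (Or.inl ⟨p, hp, rfl⟩)) (fun h0 => hne ?_)).2 ?_
    · exact disjoint_compl_right_iff.1 (disjoint_iff.2 h0)
    · refine le_bot_iff.1 ?_
      calc p ⊓ aᶜ ⊓ yᶜ ≤ (a ⊔ a' ⊓ y) ⊓ aᶜ ⊓ yᶜ := by gcongr
        _ ≤ (a ⊔ y) ⊓ aᶜ ⊓ yᶜ := by gcongr; exact inf_le_right
        _ = ⊥ := by rw [inf_assoc, ← compl_sup, inf_compl_eq_bot]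
        _ ≤ ⊥ := le_rfl
  · intro hcp
    by_contra hne
    refine (hy _ (Or.inl (Or.inr ⟨p, hp, rfl⟩)) (fun h0 => hne ?_)).1 ?_
    · exact disjoint_compl_right_iff.1 (disjoint_iff.2 h0)
    · refine le_bot_iff.1 ?_
      calc a' ⊓ pᶜ ⊓ y = (a' ⊓ y) ⊓ pᶜ := inf_right_comm _ _ _
        _ ≤ p ⊓ pᶜ := by gcongr; exact le_sup_right.trans hcp
        _ = ⊥ := inf_compl_eq_bot
        _ ≤ ⊥ := le_rfl
  · intro hcp
    by_contra hne
    refine (hy _ (Or.inr ⟨p, hp, rfl⟩) hne).1 ?_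
    refine le_bot_iff.1 ?_
    calc a' ⊓ p ⊓ y = (a' ⊓ y) ⊓ p := inf_right_comm _ _ _
      _ ≤ (a ⊔ a' ⊓ y) ⊓ p := by gcongr; exact le_sup_right
      _ = ⊥ := hcp
      _ ≤ ⊥ := le_rfl

/-- A record: a level, an element of `B × Bᵒᵈ` given by its two parts, and a rank. -/
structure Rec (B τ : Type) where
  k : ℕ
  l : B
  d : B
  α : τ

variable {τ : Type} [LinearOrder τ]

/-- Compatibility of two records. -/
def Compat (r r' : Rec B τ) : Prop :=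
  (r.k = r'.k → r.l ⊓ r'.l ≠ ⊥ ∧ r.d ⊓ r'.d ≠ ⊥ ∧
    (r.l ≤ r'.l → r'.d ≤ r.d → r.l = r'.l ∧ r.d = r'.d)) ∧
  (r.k + 1 = r'.k → r.d ⊓ r'.l ≠ ⊥ ∧ (r.d ≤ r'.l → r'.α < r.α))

/-- Pairwise compatible families. -/
def Good (R : Set (Rec B τ)) : Prop := ∀ r ∈ R, ∀ r' ∈ R, Compat r r'

/-- The pair `(l, d)` settles the interval from `(li, di)` to `(lx, dx)`. -/
def Settles (l d li di lx dx : B) : Prop :=
  (l ≤ li ∧ di ≤ d) ∨ (lx ≤ l ∧ d ≤ dx) ∨ (li ≤ l ∧ d ≤ di ∧ l ≤ lx ∧ dx ≤ d)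

/-- Some record of level `k`, or its complement, settles the interval. -/
def Sat (R : Set (Rec B τ)) (k : ℕ) (li di lx dx : B) : Prop :=
  ∃ r ∈ R, r.k = k ∧ (Settles r.l r.d li di lx dx ∨ Settles r.lᶜ r.dᶜ li di lx dx)

/-- The positive elements on the edge `j`. -/
def Pos (R : Set (Rec B τ)) (j : ℕ) (p : B) : Prop :=
  p = ⊤ ∨ (∃ r ∈ R, r.k = j ∧ p = r.l) ∨ (∃ r ∈ R, r.k + 1 = j ∧ p = r.d)

theorem Good.pos_inf [Nontrivial B] {R : Set (Rec B τ)} (hR : Good R) {j : ℕ} {p q : B}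
    (hp : Pos R j p) (hq : Pos R j q) : p ⊓ q ≠ ⊥ := by
  have h1 : ∀ r ∈ R, r.l ≠ ⊥ := fun r hr h => ((hR r hr r hr).1 rfl).1 (by rw [h]; simp)
  have h2 : ∀ r ∈ R, r.d ≠ ⊥ := fun r hr h => ((hR r hr r hr).1 rfl).2.1 (by rw [h]; simp)
  rcases hp with rfl | ⟨r, hr, hk, rfl⟩ | ⟨r, hr, hk, rfl⟩ <;>
    rcases hq with rfl | ⟨r', hr', hk', rfl⟩ | ⟨r', hr', hk', rfl⟩
  · simp
  · simpa using h1 r' hr'
  · simpa using h2 r' hr'
  · simpa using h1 r hr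
  · exact ((hR r hr r' hr').1 (by omega)).1
  · rw [inf_comm]; exact ((hR r' hr' r hr).2 (by omega)).1
  · simpa using h2 r hr
  · exact ((hR r hr r' hr').2 (by omega)).1
  · exact ((hR r hr r' hr').1 (by omega)).2.1

theorem insertion (hG : Splitting B) {R : Set (Rec B τ)} (hR : Good R) (hF : Few R) (k : ℕ)
    {li di lx dx : B} (hl : li ≤ lx) (hd : dx ≤ di) (α : τ)
    (h1 : ∀ r ∈ R, r.k = k → ¬ (r.l ≤ li ∧ di ≤ r.d))
    (h2 : ∀ r ∈ R, r.k = k → ¬ (lx ≤ r.l ∧ r.d ≤ dx))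
    (h3 : ∀ p, Pos R k p → lx ⊓ p ≠ ⊥) (h4 : ∀ p, Pos R (k + 1) p → di ⊓ p ≠ ⊥)
    (h5 : ∀ r ∈ R, r.k + 1 = k → r.d ≤ li → α < r.α)
    (h6 : ∀ r ∈ R, k + 1 = r.k → di ≤ r.l → r.α < α) :
    ∃ l d, li ≤ l ∧ l ≤ lx ∧ dx ≤ d ∧ d ≤ di ∧ Good (insert ⟨k, l, d, α⟩ R) := by
  have hP : Few (({⊤} ∪ Rec.l '' R) ∪ Rec.d '' R : Set B) :=
    ((few_singleton _).union (hF.image _)).union (hF.image _)
  obtain ⟨l, a1, a2, hl'⟩ := hG.generic hP hl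
  obtain ⟨d, b1, b2, hd'⟩ := hG.generic hP hd
  have mt : (⊤ : B) ∈ (({⊤} ∪ Rec.l '' R) ∪ Rec.d '' R : Set B) := Or.inl (Or.inl rfl)
  have ml : ∀ r ∈ R, r.l ∈ (({⊤} ∪ Rec.l '' R) ∪ Rec.d '' R : Set B) :=
    fun r hr => Or.inl (Or.inr ⟨r, hr, rfl⟩)
  have md : ∀ r ∈ R, r.d ∈ (({⊤} ∪ Rec.l '' R) ∪ Rec.d '' R : Set B) :=
    fun r hr => Or.inr ⟨r, hr, rfl⟩
  have c1 : ∀ r ∈ R, k = r.k → l ⊓ r.l ≠ ⊥ := fun r hr hk h =>
    h3 _ (Or.inr (Or.inl ⟨r, hr, hk.symm, rfl⟩)) ((hl' _ (ml r hr)).2.2 h)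
  have c2 : ∀ r ∈ R, k = r.k → d ⊓ r.d ≠ ⊥ := fun r hr hk h =>
    h4 _ (Or.inr (Or.inr ⟨r, hr, by omega, rfl⟩)) ((hd' _ (md r hr)).2.2 h)
  refine ⟨l, d, a1, a2, b1, b2, ?_⟩
  rintro r (rfl | hr) r' (rfl | hr')
  · refine ⟨fun _ => ⟨fun h => ?_, fun h => ?_, fun _ _ => ⟨rfl, rfl⟩⟩, fun h => ?_⟩
    · exact h3 _ (Or.inl rfl) ((hl' _ mt).2.2 (by simpa using h))
    · exact h4 _ (Or.inl rfl) ((hd' _ mt).2.2 (by simpa using h))
    · simp at h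
  · refine ⟨fun hk => ⟨c1 r' hr' hk, c2 r' hr' hk, fun e1 e2 => ?_⟩, fun hk => ⟨fun h => ?_, fun h => ?_⟩⟩
    · exact absurd ⟨(hl' _ (ml r' hr')).2.1 e1, (hd' _ (md r' hr')).1 e2⟩ (h2 r' hr' hk.symm)
    · exact h4 _ (Or.inr (Or.inl ⟨r', hr', hk.symm, rfl⟩)) ((hd' _ (ml r' hr')).2.2 h)
    · exact h6 r' hr' hk ((hd' _ (ml r' hr')).2.1 h)
  · refine ⟨fun hk => ⟨?_, ?_, fun e1 e2 => ?_⟩, fun hk => ⟨fun h => ?_, fun h => ?_⟩⟩
    · rw [inf_comm]; exact c1 r hr hk.symm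
    · rw [inf_comm]; exact c2 r hr hk.symm
    · exact absurd ⟨(hl' _ (ml r hr)).1 e1, (hd' _ (md r hr)).2.1 e2⟩ (h1 r hr hk)
    · rw [inf_comm] at h
      exact h3 _ (Or.inr (Or.inr ⟨r, hr, hk, rfl⟩)) ((hl' _ (md r hr)).2.2 h)
    · exact h5 r hr hk ((hl' _ (md r hr)).1 h)
  · exact hR r hr r' hr'

theorem Settles.compl {l d li di lx dx : B} (h : Settles l d lxᶜ dxᶜ liᶜ diᶜ) :
    Settles lᶜ dᶜ li di lx dx := by
  rcases h with h | h | h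
  · exact Or.inr (Or.inl ⟨le_compl_comm.1 h.1, compl_le_iff_compl_le.1 h.2⟩)
  · exact Or.inl ⟨compl_le_iff_compl_le.1 h.1, le_compl_comm.1 h.2⟩
  · exact Or.inr (Or.inr ⟨le_compl_comm.1 h.2.2.1, compl_le_iff_compl_le.1 h.2.2.2,
      compl_le_iff_compl_le.1 h.1, le_compl_comm.1 h.2.1⟩)

omit [LinearOrder τ] in
theorem Sat.compl {R : Set (Rec B τ)} {k : ℕ} {li di lx dx : B} (h : Sat R k lxᶜ dxᶜ liᶜ diᶜ) :
    Sat R k li di lx dx := by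
  obtain ⟨r, hr, hk, h | h⟩ := h
  · exact ⟨r, hr, hk, Or.inr h.compl⟩
  · exact ⟨r, hr, hk, Or.inl (by simpa using h.compl)⟩

theorem middle [Nontrivial B] (hG : Splitting B) {R : Set (Rec B τ)} (hR : Good R) (hF : Few R)
    (k : ℕ) {li di lx dx : B} (hl : li ≤ lx) (hd : dx ≤ di) (t : τ) (ht : ∀ r ∈ R, r.α < t)
    (h1 : ∀ r ∈ R, r.k = k → ¬ (r.l ≤ li ∧ di ≤ r.d))
    (h1' : ∀ r ∈ R, r.k = k → ¬ (r.lᶜ ≤ li ∧ di ≤ r.dᶜ))
    (h2 : ∀ r ∈ R, r.k = k → ¬ (lx ≤ r.l ∧ r.d ≤ dx))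
    (h2' : ∀ r ∈ R, r.k = k → ¬ (lx ≤ r.lᶜ ∧ r.dᶜ ≤ dx))
    (h3 : ∀ p, Pos R k p → ¬ p ≤ li) (h4 : ∀ p, Pos R k p → ¬ p ≤ lxᶜ) :
    ∃ l d, Good (insert ⟨k, l, d, t⟩ R) ∧ ((li ≤ l ∧ l ≤ lx ∧ dx ≤ d ∧ d ≤ di) ∨
      (li ≤ lᶜ ∧ lᶜ ≤ lx ∧ dx ≤ dᶜ ∧ dᶜ ≤ di)) := by
  by_cases hc : ∀ p, Pos R (k + 1) p → di ⊓ p ≠ ⊥
  · obtain ⟨l, d, a1, a2, a3, a4, hg⟩ := insertion hG hR hF k hl hd t h1 h2
      (fun p hp h => h4 p hp (le_compl_iff_disjoint_left.2 (disjoint_iff.2 h))) hc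
      (fun r hr hk h => absurd h (h3 _ (Or.inr (Or.inr ⟨r, hr, hk, rfl⟩))))
      (fun r hr _ _ => ht r hr)
    exact ⟨l, d, hg, Or.inl ⟨a1, a2, a3, a4⟩⟩
  · push Not at hc
    obtain ⟨p0, hp0, hc⟩ := hc
    obtain ⟨l, d, a1, a2, a3, a4, hg⟩ := insertion hG hR hF k (compl_le_compl hl)
      (compl_le_compl hd) t
      (fun r hr hk h => h2' r hr hk ⟨le_compl_comm.1 h.1, compl_le_iff_compl_le.1 h.2⟩)
      (fun r hr hk h => h1' r hr hk ⟨compl_le_iff_compl_le.1 h.1, le_compl_comm.1 h.2⟩)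
      (fun p hp h => h3 p hp (disjoint_compl_left_iff.1 (disjoint_iff.2 h)))
      (fun p hp h => hR.pos_inf hp hp0 (le_bot_iff.1 (hc ▸ inf_le_inf_right _
        ((disjoint_compl_left_iff.1 (disjoint_iff.2 h)).trans hd))))
      (fun r hr hk h => absurd h (h4 _ (Or.inr (Or.inr ⟨r, hr, hk, rfl⟩))))
      (fun r hr _ _ => ht r hr)
    exact ⟨l, d, hg, Or.inr ⟨le_compl_comm.1 a2, compl_le_iff_compl_le.1 a1,
      le_compl_comm.1 a4, compl_le_iff_compl_le.1 a3⟩⟩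

theorem extend_one [Nontrivial B] (hG : Splitting B) {R : Set (Rec B τ)} (hR : Good R)
    (hF : Few R) (k : ℕ) {li di lx dx : B} (hl : li ≤ lx) (hd : dx ≤ di) (t : τ)
    (ht : ∀ r ∈ R, r.α < t) (hS : ¬ Sat R k li di lx dx) {p : B} (hp : Pos R k p)
    (hpl : p ≤ li) :
    ∃ r, r.α ≤ t ∧ Good (insert r R) ∧ Sat (insert r R) k li di lx dx := by
  by_cases hc : ∃ r ∈ R, r.k = k ∧ li ≤ r.l ∧ r.d ≤ di
  · obtain ⟨r0, hr0, hk0, e1, e2⟩ := hc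
    obtain ⟨l, d, a1, a2, a3, a4, hg⟩ := insertion hG hR hF k hl hd r0.α
      (fun r hr hk h => hS ⟨r, hr, hk, Or.inl (Or.inl h)⟩)
      (fun r hr hk h => hS ⟨r, hr, hk, Or.inl (Or.inr (Or.inl h))⟩)
      (fun q hq h => hR.pos_inf hp hq (le_bot_iff.1 (h ▸ inf_le_inf_right _ (hpl.trans hl))))
      (fun q hq h => hR.pos_inf (Or.inr (Or.inr ⟨r0, hr0, by omega, rfl⟩)) hq
        (le_bot_iff.1 (h ▸ inf_le_inf_right _ e2)))
      (fun r hr hk h => ((hR r hr r0 hr0).2 (by omega)).2 (h.trans e1))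
      (fun r hr hk h => ((hR r0 hr0 r hr).2 (by omega)).2 (e2.trans h))
    exact ⟨⟨k, l, d, r0.α⟩, (ht r0 hr0).le, hg, _, Or.inl rfl, rfl,
      Or.inl (Or.inr (Or.inr ⟨a1, a4, a2, a3⟩))⟩
  · have hself : ∀ r ∈ R, r.l ≠ ⊥ ∧ r.d ≠ ⊥ := fun r hr =>
      ⟨fun h => ((hR r hr r hr).1 rfl).1 (by rw [h]; simp),
        fun h => ((hR r hr r hr).1 rfl).2.1 (by rw [h]; simp)⟩
    obtain ⟨l, d, hg, h⟩ := middle hG hR hF k (bot_le : ⊥ ≤ li) (le_top : di ≤ ⊤) t ht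
      (fun r hr _ h => (hself r hr).1 (le_bot_iff.1 h.1))
      (fun r hr _ h => (hself r hr).2 (by simpa using h.2))
      (fun r hr hk h => hc ⟨r, hr, hk, h⟩)
      (fun r hr hk h => hR.pos_inf hp (Or.inr (Or.inl ⟨r, hr, hk, rfl⟩))
        (disjoint_iff.1 (le_compl_iff_disjoint_right.1 (hpl.trans h.1))))
      (fun q hq h => hR.pos_inf hq hq (by simpa using h))
      (fun q hq h => hR.pos_inf hq hp (disjoint_iff.1 (le_compl_iff_disjoint_right.1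
        (h.trans (compl_le_compl hpl)))))
    refine ⟨⟨k, l, d, t⟩, le_rfl, hg, _, Or.inl rfl, rfl, ?_⟩
    rcases h with h | h
    · exact Or.inl (Or.inl ⟨h.2.1, h.2.2.1⟩)
    · exact Or.inr (Or.inl ⟨h.2.1, h.2.2.1⟩)

theorem extend [Nontrivial B] (hG : Splitting B) {R : Set (Rec B τ)} (hR : Good R)
    (hF : Few R) (k : ℕ) {li di lx dx : B} (hl : li ≤ lx) (hd : dx ≤ di) (t : τ)
    (ht : ∀ r ∈ R, r.α < t) :
    ∃ r, r.α ≤ t ∧ Good (insert r R) ∧ Sat (insert r R) k li di lx dx := by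
  by_cases hS : Sat R k li di lx dx
  · obtain ⟨r, hr, h⟩ := hS
    refine ⟨r, (ht r hr).le, ?_, r, Or.inl rfl, h⟩
    rwa [insert_eq_of_mem hr]
  by_cases h1 : ∃ p, Pos R k p ∧ p ≤ li
  · obtain ⟨p, hp, hpl⟩ := h1
    exact extend_one hG hR hF k hl hd t ht hS hp hpl
  by_cases h2 : ∃ p, Pos R k p ∧ p ≤ lxᶜ
  · obtain ⟨p, hp, hpl⟩ := h2
    obtain ⟨r, a, b, c⟩ := extend_one hG hR hF k (compl_le_compl hl) (compl_le_compl hd) t ht
      (fun h => hS h.compl) hp hpl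
    exact ⟨r, a, b, c.compl⟩
  push Not at h1 h2
  obtain ⟨l, d, hg, h⟩ := middle hG hR hF k hl hd t ht
    (fun r hr hk h => hS ⟨r, hr, hk, Or.inl (Or.inl h)⟩)
    (fun r hr hk h => hS ⟨r, hr, hk, Or.inr (Or.inl h)⟩)
    (fun r hr hk h => hS ⟨r, hr, hk, Or.inl (Or.inr (Or.inl h))⟩)
    (fun r hr hk h => hS ⟨r, hr, hk, Or.inr (Or.inr (Or.inl h))⟩) h1 h2
  refine ⟨⟨k, l, d, t⟩, le_rfl, hg, _, Or.inl rfl, rfl, ?_⟩
  rcases h with h | h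
  · exact Or.inl (Or.inr (Or.inr ⟨h.1, h.2.2.2, h.2.1, h.2.2.1⟩))
  · exact Or.inr (Or.inr (Or.inr ⟨h.1, h.2.2.2, h.2.1, h.2.2.1⟩))

omit [LinearOrder τ] in
theorem Sat.mono {R R' : Set (Rec B τ)} {k : ℕ} {li di lx dx : B} (h : Sat R k li di lx dx)
    (hR : R ⊆ R') : Sat R' k li di lx dx := by
  obtain ⟨r, hr, h⟩ := h
  exact ⟨r, hR hr, h⟩

theorem exists_good_of_enum [Nontrivial B] [WellFoundedLT τ] (hG : Splitting B)
    (hτ : ∀ t : τ, Few (Iio t)) (task : τ → ℕ × B × B × B × B) (hs : Function.Surjective task) :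
    ∃ R : Set (Rec B τ), Good R ∧
      ∀ k li di lx dx, li ≤ lx → dx ≤ di → Sat R k li di lx dx := by
  have hstep : ∀ (t : τ) (R : Set (Rec B τ)), ∃ r : Rec B τ,
      Good R → Few R → (∀ r' ∈ R, r'.α < t) → r.α ≤ t ∧ Good (insert r R) ∧
        Sat (insert r R) (task t).1 (task t).2.1 (task t).2.2.1
          ((task t).2.1 ⊔ (task t).2.2.2.1) ((task t).2.2.1 ⊓ (task t).2.2.2.2) := by
    intro t R
    by_cases h : Good R ∧ Few R ∧ ∀ r' ∈ R, r'.α < t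
    · obtain ⟨r, hr⟩ := extend hG h.1 h.2.1 (task t).1
        (le_sup_left : (task t).2.1 ≤ (task t).2.1 ⊔ (task t).2.2.2.1)
        (inf_le_left : (task t).2.2.1 ⊓ (task t).2.2.2.2 ≤ (task t).2.2.1) t h.2.2
      exact ⟨r, fun _ _ _ => hr⟩
    · exact ⟨⟨0, ⊥, ⊥, t⟩, fun a b c => absurd ⟨a, b, c⟩ h⟩
  choose step hstep using hstep
  let f : τ → Rec B τ := (wellFounded_lt (α := τ)).fix
    fun t g => step t {r | ∃ s, ∃ h : s < t, g s h = r}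
  have hf : ∀ t, f t = step t (f '' Iio t) := by
    intro t
    have : f t = step t {r | ∃ s, ∃ _ : s < t, f s = r} := WellFounded.fix_eq _ _ _
    rw [this]
    congr 1
    ext r
    simp
  have main : ∀ t, (f t).α ≤ t ∧ Good (insert (f t) (f '' Iio t)) ∧
      Sat (insert (f t) (f '' Iio t)) (task t).1 (task t).2.1 (task t).2.2.1
          ((task t).2.1 ⊔ (task t).2.2.2.1) ((task t).2.2.1 ⊓ (task t).2.2.2.2) := by
    intro t
    induction t using WellFoundedLT.induction with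
    | ind t ih =>
      rw [hf t]
      refine hstep t _ ?_ ((hτ t).image f) ?_
      · rintro _ ⟨s, hs, rfl⟩ _ ⟨s', hs', rfl⟩
        rcases lt_trichotomy s s' with h | rfl | h
        · exact (ih s' hs').2.1 _ (Or.inr ⟨s, h, rfl⟩) _ (Or.inl rfl)
        · exact (ih s hs).2.1 _ (Or.inl rfl) _ (Or.inl rfl)
        · exact (ih s hs).2.1 _ (Or.inl rfl) _ (Or.inr ⟨s', h, rfl⟩)
      · rintro _ ⟨s, hs, rfl⟩
        exact (ih s hs).1.trans_lt hs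
  refine ⟨range f, ?_, ?_⟩
  · rintro _ ⟨s, rfl⟩ _ ⟨s', rfl⟩
    rcases lt_trichotomy s s' with h | rfl | h
    · exact (main s').2.1 _ (Or.inr ⟨s, h, rfl⟩) _ (Or.inl rfl)
    · exact (main s).2.1 _ (Or.inl rfl) _ (Or.inl rfl)
    · exact (main s).2.1 _ (Or.inl rfl) _ (Or.inr ⟨s', h, rfl⟩)
  · intro k li di lx dx hl hd
    obtain ⟨t, ht⟩ := hs (k, li, di, lx, dx)
    have := (main t).2.2
    rw [ht] at this
    simp only [sup_eq_right.2 hl, inf_eq_right.2 hd] at this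
    exact this.mono (insert_subset (mem_range_self t) (image_subset_range _ _))

theorem exists_good [Nontrivial B] (hG : Splitting B) (hB : #B ≤ continuum) :
    ∃ (τ : Type) (_ : LinearOrder τ) (_ : WellFoundedLT τ) (R : Set (Rec B τ)), Good R ∧
      ∀ k li di lx dx, li ≤ lx → dx ≤ di → Sat R k li di lx dx := by
  have hc : #(ℕ × B × B × B × B) ≤ #(continuum.{0}.ord.ToType) := by
    rw [mk_ord_toType]
    simp only [mk_prod, lift_id, mk_nat]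
    calc ℵ₀ * (#B * (#B * (#B * #B))) ≤
          continuum * (continuum * (continuum * (continuum * continuum))) := by
          gcongr; exact aleph0_le_continuum
      _ = continuum := by simp
  obtain ⟨e⟩ := (Cardinal.le_def _ _).1 hc
  obtain ⟨R, h⟩ := exists_good_of_enum (τ := continuum.{0}.ord.ToType) hG
    (fun t => mk_Iio_toType_ord_lt t) (Function.invFun e) (Function.invFun_surjective e.injective)
  exact ⟨_, inferInstance, inferInstance, R, h⟩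

end Crest.Agent.R053
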