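import Crest.Agent.R053.Local
import Crest.Agent.R053.Top

/-!
Row 53, part D: a concrete block system whose quotient algebra has the splitting property.
-/

set_option autoImplicit false

namespace Crest.Agent.R053

open Set Filter Cardinal

/-- The points: Boolean functions of finitely many Boolean variables. -/
abbrev Pt : Type := Σ m : ℕ, ((Fin m → Bool) → Bool)

theorem blk_eq (m : ℕ) : (Sigma.fst ⁻¹' {m} : Set Pt) = range (Sigma.mk m) := by
  ext ⟨m', f⟩
  simp only [mem_preimage, mem_singleton_iff, mem_range]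
  constructor
  · rintro rfl; exact ⟨f, rfl⟩
  · rintro ⟨g, hg⟩; exact (congrArg Sigma.fst hg).symm

/-- The concrete block system. -/
def K0 : Blk Pt ℕ where
  blk := Sigma.fst
  fin := fun m => by rw [blk_eq]; exact finite_range _
  t := fun j m => 2 ^ (2 ^ m) / 2 ^ j
  t_zero := fun m => eventually_atTop.2 ⟨2 ^ m + 1, fun j hj =>
    Nat.div_eq_of_lt (Nat.pow_lt_pow_right (by norm_num) (by omega))⟩
  t_half := fun j m => by
    rw [pow_succ, ← Nat.div_div_eq_div_mul]
    omega
  t_pos := fun j => (finite_Iio j).subset fun m hm => by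
    by_contra h
    simp only [mem_Iio, not_lt] at h
    have h1 : j ≤ 2 ^ m := h.trans (Nat.lt_two_pow_self).le
    have h2 : 0 < 2 ^ (2 ^ m) / 2 ^ j :=
      Nat.div_pos (Nat.pow_le_pow_right (by norm_num) h1) (by positivity)
    simp only [mem_ofPred_eq] at hm
    omega

theorem K0_cnt (A : Set Pt) (m : ℕ) : K0.cnt A m = (Sigma.mk m ⁻¹' A).ncard := by
  unfold Blk.cnt
  have : A ∩ K0.blk ⁻¹' {m} = Sigma.mk m '' (Sigma.mk m ⁻¹' A) := by
    rw [image_preimage_eq_inter_range]
    exact congrArg _ (blk_eq m)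
  rw [this, ncard_image_of_injective _ sigma_mk_injective]

theorem K0_univ : ¬ K0.Null univ := by
  intro h
  refine infinite_univ ((h 1).subset fun m _ => ?_)
  simp only [mem_ofPred_eq, K0_cnt, preimage_univ, ncard_univ, Nat.card_eq_fintype_card,
    Fintype.card_fun, Fintype.card_bool, Fintype.card_fin]
  exact Nat.div_lt_self (by positivity) (by norm_num)

/-- The independent family. -/
def Yset (η : ℕ → Bool) (b : Bool) : Set Pt := {p | p.2 (fun i => η i) = b}

theorem card_fixed {A : Type} [Fintype A] [DecidableEq A] (s : Finset A) (c : A → Bool) :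
    {f : A → Bool | ∀ x ∈ s, f x = c x}.ncard ≤ 2 ^ Fintype.card A / 2 ^ s.card := by
  rw [Nat.pow_div (Finset.card_le_univ s) (by norm_num)]
  have h := ncard_le_ncard_of_injOn (s := {f : A → Bool | ∀ x ∈ s, f x = c x})
    (t := (univ : Set ({x // x ∉ s} → Bool))) (fun f x => f x.1) (fun _ _ => mem_univ _) (by
      intro f hf g hg hfg
      funext x
      by_cases hx : x ∈ s
      · rw [hf x hx, hg x hx]
      · exact congrFun hfg ⟨x, hx⟩) (toFinite _)
  refine h.trans (le_of_eq ?_)
  rw [ncard_univ, Nat.card_eq_fintype_card, Fintype.card_fun, Fintype.card_bool,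
    Fintype.card_subtype_compl, Fintype.card_coe]

theorem eventually_injOn (s : Finset (ℕ → Bool)) :
    ∀ᶠ m in atTop, InjOn (fun (η : ℕ → Bool) (i : Fin m) => η i) s := by
  have : ∀ᶠ m in atTop, ∀ η ∈ s, ∀ η' ∈ s,
      (fun i : Fin m => η i) = (fun i : Fin m => η' i) → η = η' := by
    simp only [eventually_all_finset]
    intro η _ η' _
    by_cases h : η = η'
    · exact Eventually.of_forall fun _ _ => h
    · obtain ⟨i, hi⟩ := Function.ne_iff.1 h
      filter_upwards [eventually_gt_atTop i] with m hm hh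
      exact absurd (congrFun hh ⟨i, hm⟩) hi
  filter_upwards [this] with m hm η h η' h' hh
  exact hm η h η' h' hh

theorem cnt_inter (s : Finset (ℕ → Bool)) (b : (ℕ → Bool) → Bool) :
    ∀ᶠ m in atTop, K0.cnt (⋂ η ∈ s, Yset η (b η)) m ≤ K0.t s.card m := by
  classical
  filter_upwards [eventually_injOn s] with m hm
  let r : (ℕ → Bool) → Fin m → Bool := fun η i => η i
  let c : (Fin m → Bool) → Bool := fun x => b (Function.invFunOn r s x)
  have h := card_fixed (s.image r) c
  rw [Finset.card_image_of_injOn hm] at h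
  simp only [Fintype.card_fun, Fintype.card_bool, Fintype.card_fin] at h
  rw [K0_cnt]
  refine le_trans (ncard_le_ncard ?_ (toFinite _)) h
  intro f hf x hx
  obtain ⟨η, hη, rfl⟩ := Finset.mem_image.1 hx
  simp only [mem_preimage, mem_iInter] at hf
  have h1 : Function.invFunOn r s (r η) = η := hm.leftInvOn_invFunOn hη
  simp only [c, h1]
  exact hf η hη

theorem null_biUnion {γ ι κ : Type*} {K : Blk γ ι} (s : Finset κ) (A : κ → Set γ)
    (h : ∀ i ∈ s, K.Null (A i)) : K.Null (⋃ i ∈ s, A i) := by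
  classical
  induction s using Finset.induction_on with
  | empty => simpa using Blk.null_empty
  | insert a s _ ih =>
    rw [Finset.set_biUnion_insert]
    exact (h a (Finset.mem_insert_self _ _)).union
      (ih fun i hi => h i (Finset.mem_insert_of_mem hi))

theorem finite_bad {W : Set Pt} (hW : ¬ K0.Null W) :
    {η | ∃ b, K0.Null (W ∩ Yset η b)}.Finite := by
  by_contra hinf
  unfold Blk.Null at hW
  push Not at hW
  obtain ⟨j, hj⟩ := hW
  obtain ⟨s, hs, hc⟩ := Set.Infinite.exists_subset_card_eq hinf (j + 1)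
  have hb : ∀ η, ∃ b, η ∈ s → K0.Null (W ∩ Yset η b) := by
    intro η
    by_cases h : η ∈ s
    · obtain ⟨b, hb⟩ := hs h
      exact ⟨b, fun _ => hb⟩
    · exact ⟨true, fun h' => absurd h' h⟩
  choose b hb using hb
  have h1 := null_biUnion s _ hb (j + 1)
  have h2 := cnt_inter s (fun η => !b η)
  rw [← Nat.cofinite_eq_atTop, eventually_cofinite, hc] at h2
  refine hj ((h1.union h2).subset fun m hm => ?_)
  by_contra hcon
  simp only [mem_union, mem_ofPred_eq, not_or, not_lt, not_not] at hcon hm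
  have h3 : W ⊆ (⋃ η ∈ s, W ∩ Yset η (b η)) ∪ ⋂ η ∈ s, Yset η (!b η) := by
    intro p hp
    by_cases h : ∃ η ∈ s, p ∈ Yset η (b η)
    · obtain ⟨η, hη, h⟩ := h
      exact Or.inl (mem_biUnion hη ⟨hp, h⟩)
    · push Not at h
      refine Or.inr (mem_biInter fun η hη => ?_)
      have := h η hη
      simp only [Yset, mem_ofPred_eq] at this ⊢
      exact Bool.eq_not_iff.2 this
  have h4 := K0.cnt_mono h3 m
  have h5 := K0.cnt_union_le (⋃ η ∈ s, W ∩ Yset η (b η)) (⋂ η ∈ s, Yset η (!b η)) m
  have h6 := K0.t_half j m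
  omega

theorem exists_split (𝒲 : Set (Set Pt)) (h : Few 𝒲) :
    ∃ Y : Set Pt, ∀ W ∈ 𝒲, ¬ K0.Null W → ¬ K0.Null (W ∩ Y) ∧ ¬ K0.Null (W ∩ Yᶜ) := by
  let bad : 𝒲 → Set (ℕ → Bool) := fun W => {η | ¬ K0.Null W.1 ∧ ∃ b, K0.Null (W.1 ∩ Yset η b)}
  have hfin : ∀ W, (bad W).Finite := fun W => by
    by_cases hW : K0.Null W.1
    · exact finite_empty.subset fun η hη => hη.1 hW
    · exact (finite_bad hW).subset fun η hη => hη.2
  have hlt : #(⋃ W, bad W) < continuum := by
    refine (mk_iUnion_le bad).trans_lt (mul_lt_of_lt aleph0_le_continuum h ?_)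
    exact lt_of_le_of_lt (ciSup_le' fun W => (hfin W).lt_aleph0.le) aleph0_lt_continuum
  have hne : (⋃ W, bad W) ≠ Set.univ := by
    intro hh
    rw [hh, mk_univ] at hlt
    simp at hlt
  obtain ⟨η, hη⟩ := (ne_univ_iff_exists_notMem _).1 hne
  simp only [mem_iUnion, not_exists] at hη
  refine ⟨Yset η true, fun W hW hn => ⟨fun h1 => hη ⟨W, hW⟩ ⟨hn, true, h1⟩,
    fun h1 => hη ⟨W, hW⟩ ⟨hn, false, ?_⟩⟩⟩
  convert h1 using 2
  ext p
  simp [Yset]

/-- The filter of co-null sets. -/
def Blk.conull {γ ι : Type*} (K : Blk γ ι) : Filter γ :=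
  Filter.comk K.Null Blk.null_empty (fun _ ht _ hs => ht.mono hs) (fun _ hs _ ht => hs.union ht)

/-- The quotient algebra. -/
def Q : Type := Germ K0.conull Prop

instance : DistribLattice Q := inferInstanceAs (DistribLattice (Germ K0.conull Prop))
instance : BoundedOrder Q := inferInstanceAs (BoundedOrder (Germ K0.conull Prop))

/-- The class of a set. -/
def cl (A : Set Pt) : Q := ((fun x => x ∈ A : Pt → Prop) : Germ K0.conull Prop)

theorem cl_surj : Function.Surjective cl := fun q =>
  Germ.inductionOn q (p := fun q => ∃ A, cl A = q) fun f => ⟨{x | f x}, rfl⟩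

theorem cl_le {A B : Set Pt} : cl A ≤ cl B ↔ K0.Null (A \ B) := by
  refine Germ.coe_le.trans (mem_comk.trans ?_)
  refine iff_of_eq (congrArg _ ?_)
  ext x
  simp

theorem cl_inter (A B : Set Pt) : cl (A ∩ B) = cl A ⊓ cl B := rfl
theorem cl_union (A B : Set Pt) : cl (A ∪ B) = cl A ⊔ cl B := rfl
theorem cl_empty : cl ∅ = ⊥ := rfl
theorem cl_univ : cl Set.univ = ⊤ := rfl

theorem cl_isCompl (A : Set Pt) : IsCompl (cl A) (cl Aᶜ) :=
  ⟨disjoint_iff.2 (by rw [← cl_inter, inter_compl_self, cl_empty]),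
    codisjoint_iff.2 (by rw [← cl_union, union_compl_self, cl_univ])⟩

instance : ComplementedLattice Q := ⟨fun q => by
  obtain ⟨A, rfl⟩ := cl_surj q
  exact ⟨_, cl_isCompl A⟩⟩

noncomputable instance : BooleanAlgebra Q := DistribLattice.booleanAlgebraOfComplemented Q

theorem cl_compl (A : Set Pt) : cl Aᶜ = (cl A)ᶜ := (cl_isCompl A).compl_eq.symm

theorem cl_eq_bot {A : Set Pt} : cl A = ⊥ ↔ K0.Null A := by
  rw [← le_bot_iff, ← cl_empty, cl_le, Set.sdiff_empty]

instance : Nontrivial Q := ⟨⟨cl Set.univ, ⊥, fun h => K0_univ (cl_eq_bot.1 h)⟩⟩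

theorem splitting_Q : Splitting Q := by
  intro W hW
  obtain ⟨Y, hY⟩ := exists_split _ (hW.image (Function.surjInv cl_surj))
  refine ⟨cl Y, fun w hw hne => ?_⟩
  have h1 := Function.surjInv_eq cl_surj w
  have := hY _ ⟨w, hw, rfl⟩ (fun h => hne (h1 ▸ cl_eq_bot.2 h))
  rw [← cl_eq_bot, ← cl_eq_bot, cl_inter, cl_inter, cl_compl, h1] at this
  exact this

theorem card_Q : #Q ≤ continuum := by
  refine (mk_le_of_surjective cl_surj).trans ?_
  rw [mk_set]
  exact (power_le_power_left two_ne_zero mk_le_aleph0).trans_eq two_power_aleph0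

end Crest.Agent.R053
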