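import Crest.Agent.R053.Part
import Crest.Agent.R053.Concrete

/-!
Row 53, part E: the uniform matroids of the levels, and the absence of covering chains.
-/

set_option autoImplicit false

namespace Crest.Agent.R053

open Set Filter

/-- The slice of a set of pairs. -/
def sl {γ : Type*} (b : Bool) (S : Set (Bool × γ)) : Set γ := {p | (b, p) ∈ S}

/-- Two copies of a block system. -/
def Blk.dbl {γ ι : Type*} (K : Blk γ ι) : Blk (Bool × γ) (Bool × ι) where
  blk := Prod.map id K.blk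
  fin := fun i => ((finite_singleton i.1).prod (K.fin i.2)).subset (by
    rintro ⟨b, p⟩ h
    simp only [mem_preimage, Prod.map, id, mem_singleton_iff] at h
    subst h
    simp)
  t := fun j i => K.t j i.2
  t_zero := fun i => K.t_zero i.2
  t_half := fun j i => K.t_half j i.2
  t_pos := fun j => ((toFinite (univ : Set Bool)).prod (K.t_pos j)).subset fun i hi =>
    ⟨mem_univ _, hi⟩

theorem dbl_cnt {γ ι : Type*} (K : Blk γ ι) (S : Set (Bool × γ)) (b : Bool) (i : ι) :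
    K.dbl.cnt S (b, i) = K.cnt (sl b S) i := by
  unfold Blk.cnt
  rw [← ncard_image_of_injective (sl b S ∩ K.blk ⁻¹' {i}) (Prod.mk_right_injective b)]
  congr 1
  ext ⟨b', p⟩
  simp only [Blk.dbl, mem_inter_iff, mem_preimage, Prod.map, id, mem_singleton_iff,
    Prod.mk.injEq, mem_image, sl, mem_ofPred_eq]
  constructor
  · rintro ⟨h, rfl, rfl⟩
    exact ⟨p, ⟨h, rfl⟩, rfl, rfl⟩
  · rintro ⟨q, ⟨h, rfl⟩, rfl, rfl⟩
    exact ⟨h, rfl, rfl⟩

theorem dbl_null {γ ι : Type*} (K : Blk γ ι) (S : Set (Bool × γ)) :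
    K.dbl.Null S ↔ K.Null (sl false S) ∧ K.Null (sl true S) := by
  constructor
  · intro h
    have : ∀ b, K.Null (sl b S) := fun b j =>
      ((h j).preimage (Prod.mk_right_injective b).injOn).subset fun i hi => by
        simp only [mem_preimage, mem_ofPred_eq, dbl_cnt]
        exact hi
    exact ⟨this _, this _⟩
  · rintro ⟨h1, h2⟩ j
    refine (((h1 j).image (Prod.mk false)).union ((h2 j).image (Prod.mk true))).subset ?_
    rintro ⟨b, i⟩ hi
    simp only [mem_ofPred_eq, dbl_cnt] at hi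
    cases b
    · exact Or.inl ⟨i, hi, rfl⟩
    · exact Or.inr ⟨i, hi, rfl⟩

/-- The class of the inner part. -/
def Lq (S : Set (Bool × Pt)) : Q := cl (sl false S)

/-- The class of the complement of the outer part. -/
def Dq (S : Set (Bool × Pt)) : Q := cl (sl true S)ᶜ

theorem Lq_compl (S : Set (Bool × Pt)) : Lq Sᶜ = (Lq S)ᶜ := cl_compl (sl false S)

theorem Dq_compl (S : Set (Bool × Pt)) : Dq Sᶜ = (Dq S)ᶜ := cl_compl (sl true S)ᶜ

theorem null_sdiff {S T : Set (Bool × Pt)} :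
    K0.dbl.Null (S \ T) ↔ Lq S ≤ Lq T ∧ Dq T ≤ Dq S := by
  rw [dbl_null, Lq, Lq, Dq, Dq, cl_le, cl_le, compl_sdiff_compl]
  rfl

theorem le_of_subset {S T : Set (Bool × Pt)} (h : S ⊆ T) : Lq S ≤ Lq T ∧ Dq T ≤ Dq S := by
  rw [← null_sdiff, Set.sdiff_eq_empty.2 h]
  exact Blk.null_empty

theorem eq_of_tight {S T : Set (Bool × Pt)} (h : K0.dbl.Tight S T) : Lq T = Lq S ∧ Dq T = Dq S :=
  ⟨(null_sdiff.1 h.1.1).1.antisymm (null_sdiff.1 h.1.2).1,
    (null_sdiff.1 h.1.2).2.antisymm (null_sdiff.1 h.1.1).2⟩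

/-- The centre with prescribed classes. -/
def ctr (l d : Q) : Set (Bool × Pt) :=
  {p | (p.1 = false ∧ p.2 ∈ Function.surjInv cl_surj l) ∨
    (p.1 = true ∧ p.2 ∉ Function.surjInv cl_surj d)}

theorem Lq_ctr (l d : Q) : Lq (ctr l d) = l := by
  have : sl false (ctr l d) = Function.surjInv cl_surj l := by ext p; simp [sl, ctr]
  rw [Lq, this, Function.surjInv_eq cl_surj]

theorem Dq_ctr (l d : Q) : Dq (ctr l d) = d := by
  have : (sl true (ctr l d))ᶜ = Function.surjInv cl_surj d := by ext p; simp [sl, ctr]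
  rw [Dq, this, Function.surjInv_eq cl_surj]

theorem eq_of_tight_ctr {l d : Q} {T : Set (Bool × Pt)} (h : K0.dbl.Tight (ctr l d) T) :
    Lq T = l ∧ Dq T = d := by
  have := eq_of_tight h
  rwa [Lq_ctr, Dq_ctr] at this

theorem eq_of_tight_ctr' {l d : Q} {T : Set (Bool × Pt)} (h : K0.dbl.Tight (ctr l d) Tᶜ) :
    Lq T = lᶜ ∧ Dq T = dᶜ := by
  have := eq_of_tight_ctr h
  rw [Lq_compl, Dq_compl] at this
  rw [← this.1, ← this.2]
  simp

theorem tri_ctr {l d : Q} (hl : l ≠ ⊥) (hd : d ≠ ⊥) {I X : Set (Bool × Pt)} (hIX : I ⊆ X)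
    (h : Settles l d (Lq I) (Dq I) (Lq X) (Dq X)) :
    ∃ B, K0.dbl.Tight (ctr l d) B ∧ (B ⊆ I ∨ X ⊆ B ∨ (I ⊆ B ∧ B ⊆ X)) := by
  refine Blk.exists_tight_tri (fun h => hl ?_) (fun h => hd ?_) hIX ?_
  · rw [← Lq_ctr l d]
    exact cl_eq_bot.2 ((dbl_null _ _).1 h).1
  · rw [← Dq_ctr l d]
    exact cl_eq_bot.2 ((dbl_null _ _).1 h).2
  · simp only [null_sdiff, Lq_ctr, Dq_ctr]
    unfold Settles at h
    tauto

variable {τ : Type} [LinearOrder τ]

/-- The uniform matroid of level `k`. -/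
def fam {R : Set (Rec Q τ)} (hR : Good R)
    (hS : ∀ k li di lx dx, li ≤ lx → dx ≤ di → Sat R k li di lx dx) (k : ℕ) :
    UFam (Bool × Pt) where
  base B := ∃ r ∈ R, r.k = k ∧ (K0.dbl.Tight (ctr r.l r.d) B ∨ K0.dbl.Tight (ctr r.l r.d) Bᶜ)
  swap := by
    rintro B a b ⟨r, hr, hk, h | h⟩ ha hb
    · exact ⟨r, hr, hk, Or.inl (h.swap ha hb)⟩
    · refine ⟨r, hr, hk, Or.inr ?_⟩
      have : (insert b (B \ {a}))ᶜ = insert a (Bᶜ \ {b}) := by
        ext x
        simp only [mem_compl_iff, mem_insert_iff, Set.mem_sdiff, mem_singleton_iff]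
        constructor
        · tauto
        · rintro (rfl | h)
          · rintro (rfl | h)
            · exact hb ha
            · exact h.2 rfl
          · tauto
      rw [this]
      exact h.swap hb (fun hh => hh ha)
  anti := by
    rintro B B' ⟨r, hr, hk, h⟩ ⟨r', hr', hk', h'⟩ hB
    have hle := le_of_subset hB
    obtain ⟨c1, c2, c3⟩ := (hR r hr r' hr').1 (hk.trans hk'.symm)
    obtain ⟨-, -, c4⟩ := (hR r' hr' r hr).1 (hk'.trans hk.symm)
    rcases h with h | h <;> rcases h' with h' | h'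
    · rw [(eq_of_tight_ctr h).1, (eq_of_tight_ctr h).2, (eq_of_tight_ctr h').1,
        (eq_of_tight_ctr h').2] at hle
      obtain ⟨e1, e2⟩ := c3 hle.1 hle.2
      rw [← e1, ← e2] at h'
      exact h.anti h' hB
    · rw [(eq_of_tight_ctr h).1, (eq_of_tight_ctr' h').1] at hle
      exact absurd (disjoint_iff.1 (le_compl_iff_disjoint_right.1 hle.1)) c1
    · rw [(eq_of_tight_ctr' h).2, (eq_of_tight_ctr h').2] at hle
      exact absurd (disjoint_iff.1 (le_compl_iff_disjoint_left.1 hle.2)) c2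
    · rw [(eq_of_tight_ctr' h).1, (eq_of_tight_ctr' h).2, (eq_of_tight_ctr' h').1,
        (eq_of_tight_ctr' h').2, compl_le_compl_iff_le, compl_le_compl_iff_le] at hle
      obtain ⟨e1, e2⟩ := c4 hle.1 hle.2
      rw [e1, e2] at h'
      exact (compl_injective (h'.anti h (compl_subset_compl.2 hB))).symm
  tri := by
    intro I X hIX
    have hle := le_of_subset hIX
    obtain ⟨r, hr, hk, h⟩ := hS k _ _ _ _ hle.1 hle.2
    have hl : r.l ≠ ⊥ := fun h => ((hR r hr r hr).1 rfl).1 (by rw [h]; simp)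
    have hd : r.d ≠ ⊥ := fun h => ((hR r hr r hr).1 rfl).2.1 (by rw [h]; simp)
    rcases h with h | h
    · obtain ⟨B, hB, h⟩ := tri_ctr hl hd hIX h
      exact ⟨B, ⟨r, hr, hk, Or.inl hB⟩, h⟩
    · obtain ⟨B, hB, h⟩ := tri_ctr hl hd (compl_subset_compl.2 hIX) (by
        rw [Lq_compl, Lq_compl, Dq_compl, Dq_compl, ← compl_compl r.l, ← compl_compl r.d]
        refine Settles.compl ?_
        simpa using h)
      refine ⟨Bᶜ, ⟨r, hr, hk, Or.inr (by rwa [compl_compl])⟩, ?_⟩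
      rcases h with h | h | h
      · exact Or.inr (Or.inl (subset_compl_comm.1 h))
      · exact Or.inl (compl_subset_comm.1 h)
      · exact Or.inr (Or.inr ⟨subset_compl_comm.1 h.2, compl_subset_comm.1 h.1⟩)
  compl := by
    rintro B ⟨r, hr, hk, h | h⟩
    · exact ⟨r, hr, hk, Or.inr (by rwa [compl_compl])⟩
    · exact ⟨r, hr, hk, Or.inl h⟩

theorem no_chain [WellFoundedLT τ] {R : Set (Rec Q τ)} (hR : Good R)
    (hS : ∀ k li di lx dx, li ≤ lx → dx ≤ di → Sat R k li di lx dx) (b : ℕ → Set (Bool × Pt))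
    (hb : ∀ k, (fam hR hS k).base (b k))
    (hc : ∀ k p, (true, p) ∈ b k ∨ (false, p) ∈ b (k + 1)) (a : τ) :
    ∀ r ∈ R, r.α = a → ¬ K0.dbl.Tight (ctr r.l r.d) (b r.k) := by
  induction a using WellFoundedLT.induction with
  | ind a ih =>
    intro r hr ha h
    have hle : Dq (b r.k) ≤ Lq (b (r.k + 1)) := by
      refine cl_le.2 (Blk.null_empty.mono fun p hp => ?_)
      exact (hc r.k p).elim hp.1 hp.2
    obtain ⟨r', hr', hk', h'⟩ := hb (r.k + 1)
    obtain ⟨c1, c2⟩ := (hR r hr r' hr').2 hk'.symm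
    rw [(eq_of_tight_ctr h).2] at hle
    rcases h' with h' | h'
    · rw [(eq_of_tight_ctr h').1] at hle
      exact ih r'.α (ha ▸ c2 hle) r' hr' rfl (hk' ▸ h')
    · rw [(eq_of_tight_ctr' h').1] at hle
      exact c1 (disjoint_iff.1 (le_compl_iff_disjoint_right.1 hle))

theorem exists_levels : ∃ U : ℕ → UFam (Bool × Pt), ∀ b b' : ℕ → Set (Bool × Pt),
    (∀ k, (U k).base (b k)) → (∀ k, (U k).base (b' k)) →
    (∀ k p, (true, p) ∈ b k ∨ (false, p) ∈ b (k + 1)) →
    (∀ k p, (true, p) ∈ b' k ∨ (false, p) ∈ b' (k + 1)) →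
    ¬ ∀ p, (false, p) ∈ b 0 ∨ (false, p) ∈ b' 0 := by
  obtain ⟨τ, _, _, R, hR, hS⟩ := exists_good splitting_Q card_Q
  refine ⟨fam hR hS, fun b b' hb hb' hc hc' h0 => ?_⟩
  obtain ⟨r, hr, hk, h⟩ := hb 0
  obtain ⟨r', hr', hk', h'⟩ := hb' 0
  replace h := h.resolve_left (by
    have := no_chain hR hS b hb hc _ r hr rfl
    rwa [hk] at this)
  replace h' := h'.resolve_left (by
    have := no_chain hR hS b' hb' hc' _ r' hr' rfl
    rwa [hk'] at this)
  refine ((hR r hr r' hr').1 (hk.trans hk'.symm)).1 ?_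
  rw [← (eq_of_tight_ctr h).1, ← (eq_of_tight_ctr h').1, Lq, Lq, ← cl_inter, cl_eq_bot]
  exact Blk.null_empty.mono fun p hp => (h0 p).elim hp.1 hp.2

end Crest.Agent.R053
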