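import Mathlib

/-!
Row 53, part B: block systems, the ideal of null sets, the excess functional, and the
intermediate value property inside the class of a set modulo null sets.
-/

set_option autoImplicit false

namespace Crest.Agent.R053

open Set Filter

/-- Abstract intermediate value lemma. -/
theorem ivp_finite {γ : Type*} (δ : ℕ → Set γ → ℤ) (I X : Set γ)
    (ha : ∀ j T e, I ⊆ T → T ⊆ X → e ∈ X → δ j (insert e T) ≤ δ j T + 1)
    (hX : ∃ᶠ j in atTop, 0 ≤ δ j X) (n : ℕ) :
    ∀ J, I ⊆ J → J ⊆ X → (X \ J).Finite → (X \ J).ncard = n → (∀ᶠ j in atTop, δ j J ≤ 0) →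
      ∃ B, I ⊆ B ∧ B ⊆ X ∧ (∀ᶠ j in atTop, δ j B ≤ 0) ∧ ∃ᶠ j in atTop, 0 ≤ δ j B := by
  induction n with
  | zero =>
    intro J hIJ hJX hfin hn hlow
    rw [ncard_eq_zero hfin, sdiff_eq_empty] at hn
    have : J = X := hJX.antisymm hn
    exact ⟨J, hIJ, hJX, hlow, this ▸ hX⟩
  | succ n ih =>
    intro J hIJ hJX hfin hn hlow
    by_cases hh : ∃ᶠ j in atTop, 0 ≤ δ j J
    · exact ⟨J, hIJ, hJX, hlow, hh⟩
    · obtain ⟨e, he⟩ : (X \ J).Nonempty := nonempty_of_ncard_ne_zero (by omega)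
      have h1 : X \ insert e J = (X \ J) \ {e} := by
        ext x; simp only [Set.mem_sdiff, mem_insert_iff, mem_singleton_iff]; tauto
      refine ih (insert e J) (hIJ.trans (subset_insert _ _)) (insert_subset he.1 hJX) ?_ ?_ ?_
      · rw [h1]; exact hfin.subset sdiff_subset
      · rw [h1, ncard_sdiff_singleton_of_mem he]; omega
      · rw [not_frequently] at hh
        filter_upwards [hh] with j hj
        have := ha j J e hIJ hJX he.1
        omega

theorem ivp {γ : Type*} (δ : ℕ → Set γ → ℤ) (I X : Set γ) (hIX : I ⊆ X)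
    (ha : ∀ j T e, I ⊆ T → T ⊆ X → e ∈ X → δ j (insert e T) ≤ δ j T + 1)
    (hb : ∀ j, ∃ F : Set γ, F.Finite ∧ ∀ T T', I ⊆ T → T ⊆ X → I ⊆ T' → T' ⊆ X →
      T ∩ F = T' ∩ F → δ j T = δ j T')
    (hI : ∀ᶠ j in atTop, δ j I ≤ 0) (hX : ∃ᶠ j in atTop, 0 ≤ δ j X) :
    ∃ B, I ⊆ B ∧ B ⊆ X ∧ (∀ᶠ j in atTop, δ j B ≤ 0) ∧ ∃ᶠ j in atTop, 0 ≤ δ j B := by
  choose F hF hloc using hb
  obtain ⟨j0, hj0⟩ := eventually_atTop.1 hI
  obtain ⟨J, -, hJ⟩ := zorn_subset_nonempty
    {T | I ⊆ T ∧ T ⊆ X ∧ ∀ j, j0 ≤ j → δ j T ≤ 0} (by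
      intro c hc hchain hne
      have hIU : I ⊆ ⋃₀ c := by
        obtain ⟨T, hT⟩ := hne
        exact (hc hT).1.trans (subset_sUnion_of_mem hT)
      have hUX : ⋃₀ c ⊆ X := sUnion_subset fun T hT => (hc hT).2.1
      refine ⟨⋃₀ c, ⟨hIU, hUX, fun j hj => ?_⟩, fun s hs => subset_sUnion_of_mem hs⟩
      obtain ⟨T, hT, hsub⟩ := hchain.directedOn.exists_mem_subset_of_finite_of_subset_sUnion hne
        ((hF j).subset (inter_subset_right : ⋃₀ c ∩ F j ⊆ F j)) inter_subset_left
      rw [← hloc j T (⋃₀ c) (hc hT).1 (hc hT).2.1 hIU hUX ?_]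
      · exact (hc hT).2.2 j hj
      · exact subset_antisymm (inter_subset_inter_left _ (subset_sUnion_of_mem hT))
          (subset_inter hsub inter_subset_right)) I ⟨Subset.rfl, hIX, hj0⟩
  obtain ⟨hIJ, hJX, hJlow⟩ := hJ.prop
  have hlow : ∀ᶠ j in atTop, δ j J ≤ 0 := eventually_atTop.2 ⟨j0, hJlow⟩
  by_cases hh : ∃ᶠ j in atTop, 0 ≤ δ j J
  · exact ⟨J, hIJ, hJX, hlow, hh⟩
  rw [not_frequently] at hh
  obtain ⟨j1, hj1⟩ := eventually_atTop.1 hh
  have hfin : (X \ J).Finite := by
    refine ((finite_Iio j1).biUnion fun j _ => hF j).subset ?_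
    intro e he
    by_contra hne
    simp only [mem_iUnion, not_exists, mem_Iio] at hne
    have hmem : insert e J ∈ {T | I ⊆ T ∧ T ⊆ X ∧ ∀ j, j0 ≤ j → δ j T ≤ 0} := by
      refine ⟨hIJ.trans (subset_insert _ _), insert_subset he.1 hJX, fun j hj => ?_⟩
      by_cases hjj : j < j1
      · rw [hloc j (insert e J) J (hIJ.trans (subset_insert _ _)) (insert_subset he.1 hJX) hIJ hJX
          (insert_inter_of_notMem (hne j hjj))]
        exact hJlow j hj
      · have h1 := hj1 j (by omega)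
        have h2 := ha j J e hIJ hJX he.1
        omega
    exact he.2 (hJ.2 hmem (subset_insert _ _) (mem_insert _ _))
  exact ivp_finite δ I X ha hX _ J hIJ hJX hfin rfl hlow

/-- A partition into finite blocks with thresholds. -/
structure Blk (γ ι : Type*) where
  blk : γ → ι
  fin : ∀ i, (blk ⁻¹' {i}).Finite
  t : ℕ → ι → ℕ
  t_zero : ∀ i, ∀ᶠ j in atTop, t j i = 0
  t_half : ∀ j i, t (j + 1) i + t (j + 1) i ≤ t j i
  t_pos : ∀ j, {i | t j i = 0}.Finite

namespace Blk

variable {γ ι : Type*} (K : Blk γ ι)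

/-- Number of points of `A` in the block `i`. -/
noncomputable def cnt (A : Set γ) (i : ι) : ℕ := (A ∩ K.blk ⁻¹' {i}).ncard

/-- Null sets. -/
def Null (A : Set γ) : Prop := ∀ j, {i | K.t j i < K.cnt A i}.Finite

/-- Total excess over the thresholds of level `j`. -/
noncomputable def exc (j : ℕ) (A : Set γ) : ℕ := ∑ᶠ i, (K.cnt A i - K.t j i)

theorem t_anti (i : ι) {j j' : ℕ} (h : j ≤ j') : K.t j' i ≤ K.t j i := by
  induction h with
  | refl => exact le_rfl
  | @step m _ ih => exact le_trans (by have := K.t_half m i; show K.t (m + 1) i ≤ _; omega) ih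

theorem cnt_mono {A B : Set γ} (h : A ⊆ B) (i : ι) : K.cnt A i ≤ K.cnt B i :=
  ncard_le_ncard (inter_subset_inter_left _ h) ((K.fin i).subset inter_subset_right)

theorem cnt_union_le (A B : Set γ) (i : ι) : K.cnt (A ∪ B) i ≤ K.cnt A i + K.cnt B i := by
  unfold cnt
  rw [union_inter_distrib_right]
  exact ncard_union_le _ _

theorem cnt_insert_self {A : Set γ} {e : γ} (he : e ∉ A) :
    K.cnt (insert e A) (K.blk e) = K.cnt A (K.blk e) + 1 := by
  unfold cnt
  rw [insert_inter_of_mem (by simp), ncard_insert_of_notMem (fun h => he h.1)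
    ((K.fin _).subset inter_subset_right)]

theorem cnt_insert_ne (A : Set γ) {e : γ} {i : ι} (hi : i ≠ K.blk e) :
    K.cnt (insert e A) i = K.cnt A i := by
  unfold cnt
  rw [insert_inter_of_notMem (by simpa using hi.symm)]

variable {K}

theorem Null.mono {A B : Set γ} (hB : K.Null B) (h : A ⊆ B) : K.Null A := fun j =>
  (hB j).subset fun i hi => lt_of_lt_of_le hi (K.cnt_mono h i)

theorem Null.union {A B : Set γ} (hA : K.Null A) (hB : K.Null B) : K.Null (A ∪ B) := fun j => by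
  refine ((hA (j + 1)).union (hB (j + 1))).subset fun i hi => ?_
  by_contra hcon
  simp only [mem_union, mem_ofPred_eq, not_or, not_lt] at hcon hi
  have := K.cnt_union_le A B i
  have := K.t_half j i
  omega

theorem null_empty : K.Null ∅ := fun j => by simp [cnt]

theorem Null.insert {A : Set γ} (hA : K.Null A) (e : γ) : K.Null (insert e A) := fun j => by
  refine ((hA j).insert (K.blk e)).subset fun i hi => ?_
  by_cases h : i = K.blk e
  · exact Or.inl h
  · right
    rw [mem_ofPred_eq, K.cnt_insert_ne A h] at hi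
    exact hi

theorem Null.support {A : Set γ} (hA : K.Null A) (j : ℕ) :
    (Function.support fun i => K.cnt A i - K.t j i).Finite := by
  refine (hA j).subset fun i hi => ?_
  simp only [Function.mem_support] at hi
  simp only [mem_ofPred_eq]
  omega

theorem exc_mono {A B : Set γ} (hB : K.Null B) (h : A ⊆ B) (j : ℕ) : K.exc j A ≤ K.exc j B :=
  finsum_le_finsum' ((hB.mono h).support j) (hB.support j) fun i =>
    Nat.sub_le_sub_right (K.cnt_mono h i) _

theorem le_exc {A : Set γ} (hA : K.Null A) (j : ℕ) (s : Finset ι) :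
    ∑ i ∈ s, (K.cnt A i - K.t j i) ≤ K.exc j A := by
  classical
  unfold exc
  rw [finsum_eq_sum_of_support_subset _ (s := s ∪ (hA.support j).toFinset) (by
    intro i hi; simp only [Finset.coe_union, mem_union, Finite.coe_toFinset]; exact Or.inr hi)]
  exact Finset.sum_le_sum_of_subset Finset.subset_union_left

theorem exc_insert {A : Set γ} (hA : K.Null A) {e : γ} (he : e ∉ A) (j : ℕ) :
    K.exc j (insert e A) =
      K.exc j A + if K.t j (K.blk e) ≤ K.cnt A (K.blk e) then 1 else 0 := by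
  classical
  unfold exc
  rw [← finsum_eq_single (fun i => if i = K.blk e then
      (if K.t j (K.blk e) ≤ K.cnt A (K.blk e) then 1 else 0) else 0) (K.blk e)
      (fun x hx => if_neg hx) |>.trans (if_pos rfl),
    ← finsum_add_distrib (hA.support j)]
  · refine finsum_congr fun i => ?_
    by_cases h : i = K.blk e
    · subst h
      rw [K.cnt_insert_self he, if_pos rfl]
      split_ifs <;> omega
    · rw [K.cnt_insert_ne A h, if_neg h, add_zero]
  · refine (finite_singleton (K.blk e)).subset fun i hi => ?_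
    by_contra h
    exact hi (if_neg h)

theorem exc_local {A0 : Set γ} (h0 : K.Null A0) (j : ℕ) : ∃ F : Set γ, F.Finite ∧
    ∀ A A', A ⊆ A0 → A' ⊆ A0 → A ∩ F = A' ∩ F → K.exc j A = K.exc j A' := by
  refine ⟨⋃ i ∈ {i | K.t j i < K.cnt A0 i}, K.blk ⁻¹' {i}, (h0 j).biUnion fun i _ => K.fin i, ?_⟩
  intro A A' hA hA' h
  refine finsum_congr fun i => ?_
  by_cases hi : K.t j i < K.cnt A0 i
  · have : A ∩ K.blk ⁻¹' {i} = A' ∩ K.blk ⁻¹' {i} := by
      have hsub : K.blk ⁻¹' {i} ⊆ ⋃ i ∈ {i | K.t j i < K.cnt A0 i}, K.blk ⁻¹' {i} :=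
        subset_biUnion_of_mem (u := fun i => K.blk ⁻¹' {i}) hi
      rw [← inter_eq_self_of_subset_right hsub, ← inter_assoc, ← inter_assoc, h]
    unfold cnt
    rw [this]
  · have h1 := K.cnt_mono hA i
    have h2 := K.cnt_mono hA' i
    omega

theorem exists_subset_cnt (Z : Set γ) (sz : ι → ℕ) (h : ∀ i, sz i ≤ K.cnt Z i) :
    ∃ Y, Y ⊆ Z ∧ ∀ i, K.cnt Y i = sz i := by
  have := fun i => exists_subset_card_eq (h i)
  choose Y hY hc using this
  refine ⟨⋃ i, Y i, iUnion_subset fun i => (hY i).trans inter_subset_left, fun i => ?_⟩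
  have : (⋃ i, Y i) ∩ K.blk ⁻¹' {i} = Y i := by
    ext x
    simp only [mem_inter_iff, mem_iUnion, mem_preimage, mem_singleton_iff]
    constructor
    · rintro ⟨⟨i', hx⟩, rfl⟩
      have : K.blk x = i' := (hY i' hx).2
      rwa [this]
    · intro hx
      exact ⟨⟨i, hx⟩, (hY i hx).2⟩
  unfold cnt
  rw [this, hc]

/-- A set which is not null has null subsets of arbitrarily fast growing excess. -/
theorem exists_null_subset {Z : Set γ} (hZ : ¬ K.Null Z) (g : ℕ → ℕ) :
    ∃ Y, Y ⊆ Z ∧ K.Null Y ∧ ∀ᶠ j in atTop, g j ≤ K.exc j Y := by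
  classical
  unfold Null at hZ
  push Not at hZ
  obtain ⟨j0, hj0⟩ := hZ
  let h : ℕ × ℕ → ι := fun p => (hj0.natEmbedding _ (Nat.pairEquiv p) : ι)
  have hinj : Function.Injective h := fun p q hpq =>
    Nat.pairEquiv.injective ((hj0.natEmbedding _).injective (Subtype.ext hpq))
  have hmem : ∀ p, K.t j0 (h p) < K.cnt Z (h p) := fun p => (hj0.natEmbedding _ _).2
  let sz : ι → ℕ := Function.extend h
    (fun p => if p.2 < g (p.1 + j0) then K.t (p.1 + j0) (h p) + 1 else 0) 0
  have hsz : ∀ p, sz (h p) = if p.2 < g (p.1 + j0) then K.t (p.1 + j0) (h p) + 1 else 0 :=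
    fun p => hinj.extend_apply _ _ p
  have hsz' : ∀ i, (¬ ∃ p, h p = i) → sz i = 0 := fun i hi => Function.extend_apply' _ _ _ hi
  obtain ⟨Y, hYZ, hY⟩ := exists_subset_cnt (K := K) Z sz (by
    intro i
    by_cases hi : ∃ p, h p = i
    · obtain ⟨p, rfl⟩ := hi
      rw [hsz]
      have h1 := hmem p
      have h2 := K.t_anti (h p) (Nat.le_add_left j0 p.1)
      split_ifs <;> omega
    · rw [hsz' i hi]; exact Nat.zero_le _)
  have hnull : K.Null Y := by
    intro j
    have hfin : {p : ℕ × ℕ | p.1 ≤ j ∧ p.2 < g (p.1 + j0)}.Finite := by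
      refine ((finite_Iic j).biUnion fun a _ =>
        (finite_Iio (g (a + j0))).image (fun b => (a, b))).subset ?_
      rintro ⟨a, b⟩ ⟨h1, h2⟩
      simp only [mem_iUnion, mem_image, mem_Iio, mem_Iic]
      exact ⟨a, h1, b, h2, rfl⟩
    refine ((hfin.image h).union (K.t_pos (j + 1))).subset fun i hi => ?_
    rw [mem_ofPred_eq, hY] at hi
    by_cases hi' : ∃ p, h p = i
    · obtain ⟨p, rfl⟩ := hi'
      rw [hsz] at hi
      split_ifs at hi with hp
      · by_cases hpj : p.1 ≤ j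
        · exact Or.inl ⟨p, ⟨hpj, hp⟩, rfl⟩
        · right
          have h2 := K.t_anti (h p) (show j + 1 ≤ p.1 + j0 by omega)
          have h3 := K.t_half j (h p)
          simp only [mem_ofPred_eq]
          omega
      · omega
    · rw [hsz' i hi'] at hi; omega
  refine ⟨Y, hYZ, hnull, eventually_atTop.2 ⟨j0, fun j hj => ?_⟩⟩
  obtain ⟨a, rfl⟩ : ∃ a, j = a + j0 := ⟨j - j0, by omega⟩
  refine le_trans ?_ (le_exc hnull _ ((Finset.range (g (a + j0))).image fun b => h (a, b)))
  rw [Finset.sum_image (fun b _ b' _ hb => by simpa using hinj hb)]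
  refine le_of_eq ?_
  conv_lhs => rw [← Finset.card_range (g (a + j0)), Finset.card_eq_sum_ones]
  refine Finset.sum_congr rfl fun b hb => ?_
  rw [hY, hsz, if_pos (Finset.mem_range.1 hb)]
  simp

variable (K)

/-- `T` and `S` differ by a null set. -/
def Near (S T : Set γ) : Prop := K.Null (T \ S) ∧ K.Null (S \ T)

/-- The level of `T` relative to the centre `S`. -/
noncomputable def dl (S : Set γ) (j : ℕ) (T : Set γ) : ℤ :=
  (K.exc j (T \ S) : ℤ) - K.exc j (S \ T)

/-- The bases in the class of the centre `S`. -/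
def Tight (S T : Set γ) : Prop :=
  K.Near S T ∧ (∀ᶠ j in atTop, K.dl S j T ≤ 0) ∧ ∃ᶠ j in atTop, 0 ≤ K.dl S j T

variable {K}

theorem Near.insert {S T : Set γ} (h : K.Near S T) (e : γ) : K.Near S (insert e T) :=
  ⟨(h.1.insert e).mono (by intro x hx; simp only [Set.mem_sdiff, mem_insert_iff] at hx ⊢; tauto),
    h.2.mono (sdiff_subset_sdiff_right (subset_insert _ _))⟩

theorem Near.sdiff_singleton {S T : Set γ} (h : K.Near S T) (e : γ) : K.Near S (T \ {e}) :=
  ⟨h.1.mono (sdiff_subset_sdiff_left sdiff_subset), (h.2.insert e).mono (by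
    intro x hx; simp only [Set.mem_sdiff, mem_insert_iff, mem_singleton_iff] at hx ⊢; tauto)⟩

theorem dl_mono {S T T' : Set γ} (h : K.Near S T) (h' : K.Near S T') (hT : T ⊆ T') (j : ℕ) :
    K.dl S j T ≤ K.dl S j T' := by
  have h1 := exc_mono h'.1 (sdiff_subset_sdiff_left hT) j
  have h2 := exc_mono h.2 (sdiff_subset_sdiff_right hT) j
  unfold dl
  omega

theorem dl_insert {S T : Set γ} (h : K.Near S T) {e : γ} (he : e ∉ T) (j : ℕ) :
    K.dl S j (insert e T) ≤ K.dl S j T + 1 ∧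
      (K.t j (K.blk e) = 0 → K.dl S j (insert e T) = K.dl S j T + 1) := by
  unfold dl
  by_cases hS : e ∈ S
  · have h1 : insert e T \ S = T \ S := insert_sdiff_of_mem _ hS
    have h2 : S \ T = insert e (S \ insert e T) := by
      ext x
      simp only [Set.mem_sdiff, mem_insert_iff]
      constructor
      · tauto
      · rintro (rfl | hx)
        · exact ⟨hS, he⟩
        · tauto
    have h3 := exc_insert (h.insert e).2 (e := e) (by simp) j
    rw [← h2] at h3
    rw [h1, h3]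
    constructor
    · split_ifs <;> omega
    · intro h0
      rw [if_pos (by omega)]; omega
  · have h1 : insert e T \ S = insert e (T \ S) := insert_sdiff_of_notMem _ hS
    have h2 : S \ insert e T = S \ T := by
      ext x
      simp only [Set.mem_sdiff, mem_insert_iff]
      constructor
      · tauto
      · rintro ⟨hx, hx'⟩
        exact ⟨hx, fun hh => hh.elim (fun hh => hS (hh ▸ hx)) hx'⟩
    have h3 := exc_insert h.1 (e := e) (fun hh => he hh.1) j
    rw [h1, h2, h3]
    constructor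
    · split_ifs <;> omega
    · intro h0
      rw [if_pos (by omega)]; omega

theorem Tight.swap {S B : Set γ} (h : K.Tight S B) {a b : γ} (ha : a ∈ B) (hb : b ∉ B) :
    K.Tight S (insert b (B \ {a})) := by
  have hn := h.1.sdiff_singleton a
  have key : ∀ᶠ j in atTop, K.dl S j (insert b (B \ {a})) = K.dl S j B := by
    filter_upwards [K.t_zero (K.blk a), K.t_zero (K.blk b)] with j hja hjb
    have h1 := (dl_insert hn (e := b) (fun hh => hb hh.1) j).2 hjb
    have h2 := (dl_insert hn (e := a) (by simp) j).2 hja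
    rw [insert_sdiff_singleton, insert_eq_of_mem ha] at h2
    omega
  refine ⟨hn.insert b, ?_, ?_⟩
  · filter_upwards [key, h.2.1] with j h1 h2
    omega
  · refine (h.2.2.and_eventually key).mono fun j hj => ?_
    omega

theorem Tight.anti {S B B' : Set γ} (h : K.Tight S B) (h' : K.Tight S B') (hB : B ⊆ B') :
    B = B' := by
  by_contra hne
  obtain ⟨e, he', he⟩ := exists_of_ssubset (hB.ssubset_of_ne hne)
  obtain ⟨j, ⟨h1, h2⟩, h3⟩ :=
    ((h.2.2.and_eventually h'.2.1).and_eventually (K.t_zero (K.blk e))).exists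
  have h4 := (dl_insert h.1 he j).2 h3
  have h5 := dl_mono (h.1.insert e) h'.1 (insert_subset he' hB) j
  omega

theorem exists_tight_of_near {S I X : Set γ} (hIX : I ⊆ X) (hI : K.Near S I) (hX : K.Near S X)
    (hlow : ∀ᶠ j in atTop, K.dl S j I ≤ 0) (hhigh : ∃ᶠ j in atTop, 0 ≤ K.dl S j X) :
    ∃ B, I ⊆ B ∧ B ⊆ X ∧ K.Tight S B := by
  have hnear : ∀ T, I ⊆ T → T ⊆ X → K.Near S T := fun T h1 h2 =>
    ⟨hX.1.mono (sdiff_subset_sdiff_left h2), hI.2.mono (sdiff_subset_sdiff_right h1)⟩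
  obtain ⟨B, h1, h2, h3, h4⟩ := ivp (K.dl S) I X hIX (by
      intro j T e h1 h2 _
      by_cases he : e ∈ T
      · rw [insert_eq_of_mem he]; omega
      · exact (dl_insert (hnear T h1 h2) he j).1) (by
      intro j
      obtain ⟨F1, hF1, h1⟩ := exc_local hX.1 j
      obtain ⟨F2, hF2, h2⟩ := exc_local hI.2 j
      refine ⟨F1 ∪ F2, hF1.union hF2, fun T T' a b c d hT => ?_⟩
      have hT' : ∀ x, x ∈ F1 ∨ x ∈ F2 → (x ∈ T ↔ x ∈ T') := by
        intro x hx
        have := Set.ext_iff.1 hT x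
        simp only [mem_inter_iff, mem_union] at this
        tauto
      unfold dl
      rw [h1 (T \ S) (T' \ S) (sdiff_subset_sdiff_left b) (sdiff_subset_sdiff_left d),
        h2 (S \ T) (S \ T') (sdiff_subset_sdiff_right a) (sdiff_subset_sdiff_right c)]
      · ext x
        have := hT' x
        simp only [mem_inter_iff, Set.mem_sdiff]
        tauto
      · ext x
        have := hT' x
        simp only [mem_inter_iff, Set.mem_sdiff]
        tauto) hlow hhigh
  exact ⟨B, h1, h2, hnear B h1 h2, h3, h4⟩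

theorem exists_tight_core {S I X : Set γ} (hIX : I ⊆ X) (hI : K.Null (I \ S))
    (hX : K.Null (S \ X)) (hlow : K.Null (S \ I) → ∀ᶠ j in atTop, K.dl S j I ≤ 0)
    (hhigh : K.Null (X \ S) → ∃ᶠ j in atTop, 0 ≤ K.dl S j X) :
    ∃ B, I ⊆ B ∧ B ⊆ X ∧ K.Tight S B := by
  set T0 := I ∪ (S ∩ X) with hT0
  have hT0n : K.Near S T0 :=
    ⟨hI.mono (by intro x hx; simp only [hT0, Set.mem_sdiff, mem_union, mem_inter_iff] at hx ⊢; tauto),
      hX.mono (by intro x hx; simp only [hT0, Set.mem_sdiff, mem_union, mem_inter_iff] at hx ⊢; tauto)⟩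
  have h1 : ∃ I', I ⊆ I' ∧ I' ⊆ T0 ∧ K.Near S I' ∧ ∀ᶠ j in atTop, K.dl S j I' ≤ 0 := by
    by_cases h : K.Null (S \ I)
    · exact ⟨I, Subset.rfl, subset_union_left, ⟨hI, h⟩, hlow h⟩
    · have hZ : ¬ K.Null ((S ∩ X) \ I) := fun hZ => h ((hZ.union hX).mono (by
        intro x hx; simp only [Set.mem_sdiff, mem_union, mem_inter_iff] at hx ⊢; tauto))
      obtain ⟨Y, hYZ, hY, hg⟩ := exists_null_subset hZ (fun j => K.exc j (T0 \ S))
      have hn : K.Near S (T0 \ Y) := ⟨hT0n.1.mono (sdiff_subset_sdiff_left sdiff_subset),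
        (hT0n.2.union hY).mono (by
          intro x hx; simp only [Set.mem_sdiff, mem_union] at hx ⊢; tauto)⟩
      refine ⟨T0 \ Y, fun x hx => ⟨Or.inl hx, fun hy => (hYZ hy).2 hx⟩, sdiff_subset, hn, ?_⟩
      filter_upwards [hg] with j hj
      have h2 := exc_mono hT0n.1 (sdiff_subset_sdiff_left (sdiff_subset : T0 \ Y ⊆ T0)) j
      have h3 := exc_mono hn.2 (A := Y) (fun x hx => ⟨(hYZ hx).1.1, fun hh => hh.2 hx⟩) j
      unfold dl
      omega
  have h2 : ∃ X', T0 ⊆ X' ∧ X' ⊆ X ∧ K.Near S X' ∧ ∃ᶠ j in atTop, 0 ≤ K.dl S j X' := by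
    have hT0X : T0 ⊆ X := union_subset hIX inter_subset_right
    by_cases h : K.Null (X \ S)
    · exact ⟨X, hT0X, Subset.rfl, ⟨h, hX⟩, hhigh h⟩
    · obtain ⟨Y, hYZ, hY, hg⟩ := exists_null_subset h (fun j => K.exc j (S \ T0))
      have hn : K.Near S (T0 ∪ Y) := ⟨(hT0n.1.union hY).mono (by
          intro x hx; simp only [Set.mem_sdiff, mem_union] at hx ⊢; tauto),
        hT0n.2.mono (sdiff_subset_sdiff_right subset_union_left)⟩
      refine ⟨T0 ∪ Y, subset_union_left, union_subset hT0X (hYZ.trans sdiff_subset), hn,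
        Eventually.frequently ?_⟩
      filter_upwards [hg] with j hj
      have h2 := exc_mono hT0n.2
        (sdiff_subset_sdiff_right (subset_union_left : T0 ⊆ T0 ∪ Y)) j
      have h3 := exc_mono hn.1 (A := Y) (fun x hx => ⟨Or.inr hx, (hYZ hx).2⟩) j
      unfold dl
      omega
  obtain ⟨I', a1, a2, a3, a4⟩ := h1
  obtain ⟨X', b1, b2, b3, b4⟩ := h2
  obtain ⟨B, c1, c2, c3⟩ := exists_tight_of_near (a2.trans b1) a3 b3 a4 b4
  exact ⟨B, a1.trans c1, c2.trans b2, c3⟩

/-- The trichotomy inside one class. -/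
theorem exists_tight_tri {S I X : Set γ} (hS : ¬ K.Null S) (hS' : ¬ K.Null Sᶜ) (hIX : I ⊆ X)
    (h : K.Null (S \ I) ∨ K.Null (X \ S) ∨ (K.Null (I \ S) ∧ K.Null (S \ X))) :
    ∃ B, K.Tight S B ∧ (B ⊆ I ∨ X ⊆ B ∨ (I ⊆ B ∧ B ⊆ X)) := by
  by_cases h1 : K.Null (S \ I) ∧ (K.Null (I \ S) → ∃ᶠ j in atTop, 0 ≤ K.dl S j I)
  · obtain ⟨B, _, hB, ht⟩ := exists_tight_core (K := K) (S := S) (empty_subset I)
      (by simpa using null_empty) h1.1 (fun hh => absurd (by simpa using hh) hS) h1.2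
    exact ⟨B, ht, Or.inl hB⟩
  by_cases h2 : K.Null (X \ S) ∧ (K.Null (S \ X) → ∀ᶠ j in atTop, K.dl S j X ≤ 0)
  · obtain ⟨B, hB, _, ht⟩ := exists_tight_core (K := K) (S := S) (subset_univ X)
      h2.1 (by simpa using null_empty) h2.2
      (fun hh => absurd (by rwa [← compl_eq_univ_sdiff] at hh) hS')
    exact ⟨B, ht, Or.inr (Or.inl hB)⟩
  rw [not_and] at h1 h2
  have h3 : K.Null (I \ S) ∧ K.Null (S \ X) := by
    rcases h with h | h | h
    · exact ⟨(Classical.not_imp.1 (h1 h)).1, h.mono (sdiff_subset_sdiff_right hIX)⟩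
    · exact ⟨h.mono (sdiff_subset_sdiff_left hIX), (Classical.not_imp.1 (h2 h)).1⟩
    · exact h
  obtain ⟨B, a, b, ht⟩ := exists_tight_core hIX h3.1 h3.2 (by
      intro hh
      have := (Classical.not_imp.1 (h1 hh)).2
      rw [not_frequently] at this
      filter_upwards [this] with j hj
      omega) (by
      intro hh
      have := (Classical.not_imp.1 (h2 hh)).2
      rw [not_eventually] at this
      exact this.mono fun j hj => by omega)
  exact ⟨B, ht, Or.inr (Or.inr ⟨a, b⟩)⟩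

end Blk

end Crest.Agent.R053
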