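import Mathlib

/-!
Row 53, part A: direct sums of identically self-dual uniform matroids, and the reduction of a
packing/covering partition to a covering for identically self-dual matroids.
-/

set_option autoImplicit false

namespace Crest.Agent.R053

open Set

/-- The bases of an identically self-dual uniform matroid on `β`. -/
structure UFam (β : Type*) where
  base : Set β → Prop
  swap : ∀ B a b, base B → a ∈ B → b ∉ B → base (insert b (B \ {a}))
  anti : ∀ B B', base B → base B' → B ⊆ B' → B = B'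
  tri : ∀ I X : Set β, I ⊆ X → ∃ B, base B ∧ (B ⊆ I ∨ X ⊆ B ∨ (I ⊆ B ∧ B ⊆ X))
  compl : ∀ B, base B → base Bᶜ

theorem UFam.exists_maximal {β : Type*} (U : UFam β) (I X : Set β) (hI : ∃ b, U.base b ∧ I ⊆ b)
    (hIX : I ⊆ X) : ∃ J, I ⊆ J ∧ J ⊆ X ∧ (∃ b, U.base b ∧ J ⊆ b) ∧
      ∀ K, (∃ b, U.base b ∧ K ⊆ b) → K ⊆ X → J ⊆ K → K ⊆ J := by
  obtain ⟨B, hB, h | h | h⟩ := U.tri I X hIX
  · refine ⟨I, Subset.rfl, hIX, hI, ?_⟩
    rintro K ⟨b, hb, hKb⟩ _ hIK
    have : B = b := U.anti _ _ hB hb (h.trans (hIK.trans hKb))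
    exact hKb.trans (this ▸ h)
  · exact ⟨X, hIX, Subset.rfl, ⟨B, hB, h⟩, fun K _ hK _ => hK⟩
  · refine ⟨B, h.1, h.2, ⟨B, hB, Subset.rfl⟩, ?_⟩
    rintro K ⟨b, hb, hKb⟩ _ hBK
    have : B = b := U.anti _ _ hB hb (hBK.trans hKb)
    exact this ▸ hKb

variable {α V β : Type*}

/-- The trace of `A` on the fibre of `v`. -/
def pull (e : V × β ≃ α) (v : V) (A : Set α) : Set β := {q | e (v, q) ∈ A}

/-- The set with prescribed traces. -/
def glue (e : V × β ≃ α) (F : V → Set β) : Set α := {x | (e.symm x).2 ∈ F (e.symm x).1}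

theorem pull_glue (e : V × β ≃ α) (F : V → Set β) (v : V) : pull e v (glue e F) = F v := by
  ext q; simp [pull, glue]

theorem pull_mono (e : V × β ≃ α) (v : V) {A B : Set α} (h : A ⊆ B) : pull e v A ⊆ pull e v B :=
  fun _ hq => h hq

theorem subset_of_pull (e : V × β ≃ α) {A B : Set α} (h : ∀ v, pull e v A ⊆ pull e v B) :
    A ⊆ B := by
  intro x hx
  obtain ⟨⟨v, q⟩, rfl⟩ := e.surjective x
  exact h v hx

theorem exists_base_iff (e : V × β ≃ α) (U : V → UFam β) (I : Set α) :
    (∃ B, (∀ v, (U v).base (pull e v B)) ∧ I ⊆ B) ↔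
      ∀ v, ∃ b, (U v).base b ∧ pull e v I ⊆ b := by
  constructor
  · rintro ⟨B, hB, hIB⟩ v
    exact ⟨_, hB v, pull_mono e v hIB⟩
  · intro h
    choose b hb hIb using h
    refine ⟨glue e b, fun v => by rw [pull_glue]; exact hb v, subset_of_pull e fun v => ?_⟩
    rw [pull_glue]; exact hIb v

/-- The direct sum of the uniform matroids `U v`, transported along `e`. -/
def PM (e : V × β ≃ α) (U : V → UFam β) : Matroid α where
  E := univ
  IsBase B := ∀ v, (U v).base (pull e v B)
  Indep I := ∃ B, (∀ v, (U v).base (pull e v B)) ∧ I ⊆ B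
  indep_iff' := fun _ => Iff.rfl
  exists_isBase := by
    have : ∀ v, ∃ b, (U v).base b := fun v => by
      obtain ⟨B, hB, _⟩ := (U v).tri ∅ ∅ Subset.rfl
      exact ⟨B, hB⟩
    choose b hb using this
    exact ⟨glue e b, fun v => by rw [pull_glue]; exact hb v⟩
  isBase_exchange := by
    intro X Y hX hY a ha
    obtain ⟨⟨v, q⟩, rfl⟩ := e.surjective a
    have hns : ¬ pull e v Y ⊆ pull e v X := by
      intro h
      have := (U v).anti _ _ (hY v) (hX v) h
      have hq : q ∈ pull e v X := ha.1
      rw [← this] at hq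
      exact ha.2 hq
    obtain ⟨q', hq'Y, hq'X⟩ := not_subset.1 hns
    refine ⟨e (v, q'), ⟨hq'Y, hq'X⟩, fun w => ?_⟩
    by_cases hw : w = v
    · subst hw
      have : pull e w (insert (e (w, q')) (X \ {e (w, q)})) = insert q' (pull e w X \ {q}) := by
        ext r; simp [pull]
      rw [this]
      exact (U w).swap _ _ _ (hX w) ha.1 hq'X
    · have : pull e w (insert (e (v, q')) (X \ {e (v, q)})) = pull e w X := by
        ext r; simp [pull, hw]
      rw [this]
      exact hX w
  maximality := by
    intro X _ I hI hIX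
    rw [exists_base_iff] at hI
    have := fun v => (U v).exists_maximal _ _ (hI v) (pull_mono e v hIX)
    choose J h1 h2 h3 h4 using this
    refine ⟨glue e J, subset_of_pull e fun v => by rw [pull_glue]; exact h1 v, ⟨?_, ?_⟩, ?_⟩
    · refine (exists_base_iff e U _).2 fun v => ?_
      rw [pull_glue]; exact h3 v
    · exact subset_of_pull e fun v => by rw [pull_glue]; exact h2 v
    · rintro K ⟨hK, hKX⟩ hJK
      replace hK := (exists_base_iff e U _).1 hK
      refine subset_of_pull e fun v => ?_
      rw [pull_glue]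
      refine h4 v _ (hK v) (pull_mono e v hKX) ?_
      have := pull_mono e v hJK
      rwa [pull_glue] at this
  subset_ground := fun _ _ => subset_univ _

theorem PM_ground (e : V × β ≃ α) (U : V → UFam β) : (PM e U).E = univ := rfl

theorem PM_isBase (e : V × β ≃ α) (U : V → UFam β) (B : Set α) :
    (PM e U).IsBase B ↔ ∀ v, (U v).base (pull e v B) := Iff.rfl

theorem PM_dual (e : V × β ≃ α) (U : V → UFam β) : (PM e U).dual = PM e U := by
  refine Matroid.ext_isBase rfl fun B _ => ?_
  rw [Matroid.dual_isBase_iff (subset_univ _), PM_ground, PM_isBase, PM_isBase,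
    ← compl_eq_univ_sdiff]
  constructor
  · intro h v
    have := (U v).compl _ (h v)
    have h2 : (pull e v Bᶜ)ᶜ = pull e v B := by ext q; simp [pull]
    rwa [h2] at this
  · intro h v
    exact (U v).compl _ (h v)

/-- In an identically self-dual matroid the unused part of `P` together with an independent set of
the contraction onto the complement of `P` is independent. -/
theorem indep_of_partition (M : Matroid α) (hE : M.E = univ) (hd : M.dual = M)
    (P C S I : Set α) (hPC : P ∪ C = univ) (hdj : Disjoint P C) (hS : S ⊆ P)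
    (hcl : (M.restrict P).closure S = P) (hI : (M.contract Cᶜ).Indep I) :
    M.Indep ((P \ S) ∪ I) := by
  have hP : Cᶜ = P := by
    ext x
    constructor
    · intro hx
      have : x ∈ P ∪ C := hPC ▸ mem_univ x
      exact this.resolve_right hx
    · intro hx hxC
      exact disjoint_left.1 hdj hx hxC
  rw [hP] at hI
  have hsub : ∀ A : Set α, A ⊆ M.E := fun A => hE ▸ subset_univ A
  rw [Matroid.restrict_closure_eq M hS (hsub P)] at hcl
  have hPS : P ⊆ M.closure S := by rw [← hcl]; exact inter_subset_left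
  obtain ⟨J, hJ⟩ := M.exists_isBasis S (hsub S)
  have hJP : M.IsBasis J P := by
    rw [Matroid.isBasis_iff_indep_subset_closure]
    exact ⟨hJ.indep, hJ.subset.trans hS, by rw [hJ.closure_eq_closure]; exact hPS⟩
  obtain ⟨B, hB, hJB⟩ := hJP.exists_isBase
  have hBc : M.IsBase Bᶜ := by
    have : M.dual.IsBase Bᶜ := by
      rw [Matroid.dual_isBase_iff (hsub _), hE, ← compl_eq_univ_sdiff, compl_compl]
      exact hB
    rwa [hd] at this
  have hind : M.Indep (P \ S) := by
    refine hBc.indep.subset ?_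
    intro x hx hxB
    have : x ∈ J := hJB ▸ ⟨hxB, hx.1⟩
    exact hx.2 (hJ.subset this)
  obtain ⟨K, hK, hPK⟩ := hind.subset_isBasis_of_subset sdiff_subset (hsub P)
  rw [hK.contract_indep_iff] at hI
  refine hI.1.subset ?_
  rintro x (hx | hx)
  · exact Or.inr (hPK hx)
  · exact Or.inl hx

end Crest.Agent.R053
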